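import Vale.Agent.P045.BoundedDegree

/-!
Ryser's conjecture for r-partite r-uniform hypergraphs of maximum degree at most three or four.
-/

namespace Vale.Agent.Results.P045.BoundedDegree

open Finset

theorem result (V : Type*) [Fintype V] [DecidableEq V] (r : ℕ) (part : V → Fin r)
    (H : Finset (Finset V)) (hsize : ∀ e ∈ H, e.card = r)
    (hpart : ∀ e ∈ H, Set.InjOn part (e : Set V)) (ν : ℕ)
    (hν : ∀ M ⊆ H, (M : Set (Finset V)).Pairwise Disjoint → M.card ≤ ν) :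
    ((∀ v, (H.filter (v ∈ ·)).card ≤ 3) → 7 ≤ r →
        ∃ C : Finset V, (∀ e ∈ H, ∃ v ∈ C, v ∈ e) ∧ C.card ≤ (r - 1) * ν) ∧
    ((∀ v, (H.filter (v ∈ ·)).card ≤ 4) → 160 ≤ r →
        ∃ C : Finset V, (∀ e ∈ H, ∃ v ∈ C, v ∈ e) ∧ C.card ≤ (r - 1) * ν) ∧
    ((∀ v, (H.filter (v ∈ ·)).card ≤ 3) → 3 ≤ r → (∀ e ∈ H, ∀ f ∈ H, ¬Disjoint e f) →
        ∃ C : Finset V, (∀ e ∈ H, ∃ v ∈ C, v ∈ e) ∧ C.card ≤ r - 1) := by
  refine ⟨fun hd hr => ?_, fun hd hr => ?_, fun hd hr hint => ?_⟩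
  · obtain ⟨C, h1, h2⟩ := Vale.Agent.P045.cover_degree_three part H (by omega) hsize hpart hd ν hν
    refine ⟨C, h1, ?_⟩
    have hr' : (7 : ℝ) ≤ r := by exact_mod_cast hr
    rify [(by omega : 1 ≤ r)]
    refine h2.trans (mul_le_mul_of_nonneg_right ?_ (Nat.cast_nonneg ν))
    rw [div_le_iff₀ (by linarith)]
    nlinarith
  · obtain ⟨C, h1, h2⟩ := Vale.Agent.P045.cover_degree_four part H hr hsize hpart hd ν hν
    refine ⟨C, h1, ?_⟩
    rify [(by omega : 1 ≤ r)]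
    exact h2
  · have h1ν : ∀ M ⊆ H, (M : Set (Finset V)).Pairwise Disjoint → M.card ≤ 1 := by
      intro M hM hMd
      refine card_le_one.2 fun e he f hf => ?_
      by_contra hne
      exact hint e (hM he) f (hM hf) (hMd he hf hne)
    obtain ⟨C, h1, h2⟩ := Vale.Agent.P045.cover_degree_three part H (by omega) hsize hpart hd 1 h1ν
    refine ⟨C, h1, ?_⟩
    have hr' : (3 : ℝ) ≤ r := by exact_mod_cast hr
    have hlt : (C.card : ℝ) < r := by
      refine h2.trans_lt ?_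
      rw [Nat.cast_one, mul_one, div_lt_iff₀ (by linarith)]
      nlinarith
    have : C.card < r := by exact_mod_cast hlt
    omega

end Vale.Agent.Results.P045.BoundedDegree
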