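import Vale.Agent.P045.Ryser.Edge

/-!
# P045: a counterexample to Ryser's bound, with matching number one
-/

namespace Vale.Agent.Results.P045.RyserDisproof

open Vale.Agent.P045.Ryser

/-- The counterexample on the vertex set `Fin m`, over any parameters with a good colouring. -/
theorem exists_example {u q : ℕ} [NeZero q] (hp : Par u q)
    (κ : Line q → Finset (Finset (Slot u)) → Pool u q) (hκ : IsGood (fun ℓ => suppG ℓ) κ) :
    ∃ (r m : ℕ) (H : Finset (Finset (Fin m))) (part : Fin m → Fin r),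
      2 ≤ r ∧ H.Nonempty ∧ (∀ e ∈ H, e.card = r ∧ Set.InjOn part (e : Set (Fin m))) ∧
      (∀ e ∈ H, ∀ f ∈ H, ∃ v ∈ e, v ∈ f) ∧
      ∀ C : Finset (Fin m), (∀ e ∈ H, ∃ v ∈ C, v ∈ e) → r ≤ C.card := by
  classical
  let eP : Pool u q ≃ Fin (rr u q) := Fintype.equivFinOfCardEq (card_pool hp)
  obtain ⟨H, hne, hun, hint, hcov⟩ := exists_hypergraph hp κ hκ (fun v => eP (colG κ v))
    (fun v w h => eP.injective h)
  let eV := Fintype.equivFin (GVert u q)
  refine ⟨rr u q, Fintype.card (GVert u q), H.image (Finset.map eV.toEmbedding),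
    fun v => eP (colG κ (eV.symm v)), ?_, hne.image _, ?_, ?_, ?_⟩
  · have h1 : 2 ≤ q + 1 := by have := hp.hq.two_le; omega
    exact h1.trans (Nat.le_mul_of_pos_left _ (by unfold nn; omega))
  · intro e he
    obtain ⟨e₀, he₀, rfl⟩ := Finset.mem_image.1 he
    refine ⟨by rw [Finset.card_map, (hun e₀ he₀).1], ?_⟩
    intro a ha b hb hab
    rw [Finset.mem_coe, Finset.mem_map_equiv] at ha hb
    exact eV.symm.injective ((hun e₀ he₀).2 (Finset.mem_coe.2 ha) (Finset.mem_coe.2 hb) hab)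
  · intro e he f hf
    obtain ⟨e₀, he₀, rfl⟩ := Finset.mem_image.1 he
    obtain ⟨f₀, hf₀, rfl⟩ := Finset.mem_image.1 hf
    obtain ⟨v, hv, hv'⟩ := hint e₀ he₀ f₀ hf₀
    exact ⟨eV v, Finset.mem_map_of_mem _ hv, Finset.mem_map_of_mem _ hv'⟩
  · intro C hC
    refine le_of_le_of_eq (hcov (C.map eV.symm.toEmbedding) fun e he => ?_) (Finset.card_map _)
    obtain ⟨v, hv, hve⟩ := hC _ (Finset.mem_image_of_mem _ he)
    rw [Finset.mem_map_equiv] at hve
    exact ⟨eV.symm v, Finset.mem_map_of_mem _ hv, hve⟩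

/-- There is an intersecting `r`-partite `r`-uniform hypergraph in which every cover has at least
`r` vertices, so the bound `(r - 1) * ν` of Ryser fails. -/
theorem result :
    (∃ (r m : ℕ) (H : Finset (Finset (Fin m))) (part : Fin m → Fin r),
      2 ≤ r ∧ H.Nonempty ∧ (∀ e ∈ H, e.card = r ∧ Set.InjOn part (e : Set (Fin m))) ∧
      (∀ e ∈ H, ∀ f ∈ H, ∃ v ∈ e, v ∈ f) ∧
      ∀ C : Finset (Fin m), (∀ e ∈ H, ∃ v ∈ C, v ∈ e) → r ≤ C.card) ∧
    ¬ ∀ (r m : ℕ) (H : Finset (Finset (Fin m))) (part : Fin m → Fin r) (ν : ℕ), 2 ≤ r →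
      (∀ e ∈ H, e.card = r ∧ Set.InjOn part (e : Set (Fin m))) →
      (∀ M ⊆ H, (M : Set (Finset (Fin m))).PairwiseDisjoint id → M.card ≤ ν) →
      (∃ M ⊆ H, (M : Set (Finset (Fin m))).PairwiseDisjoint id ∧ M.card = ν) →
      ∃ C : Finset (Fin m), (∀ e ∈ H, ∃ v ∈ C, v ∈ e) ∧ C.card ≤ (r - 1) * ν := by
  have hex : ∃ (r m : ℕ) (H : Finset (Finset (Fin m))) (part : Fin m → Fin r),
      2 ≤ r ∧ H.Nonempty ∧ (∀ e ∈ H, e.card = r ∧ Set.InjOn part (e : Set (Fin m))) ∧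
      (∀ e ∈ H, ∀ f ∈ H, ∃ v ∈ e, v ∈ f) ∧
      ∀ C : Finset (Fin m), (∀ e ∈ H, ∃ v ∈ C, v ∈ e) → r ≤ C.card := by
    obtain ⟨q, hq, hlo, hhi⟩ :=
      Nat.exists_prime_lt_and_le_two_mul (20 * nn 1000000) (by unfold nn; omega)
    have : NeZero q := ⟨hq.ne_zero⟩
    have hp : Par 1000000 q := ⟨le_rfl, hq, hlo, by omega⟩
    classical
    obtain ⟨κ, hκ⟩ := exists_good hp (ι := Line q)
      (by
        have h2 := hq.two_le
        have h3 : 2 * q ≤ q * q := Nat.mul_le_mul_right q h2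
        simp only [Fintype.card_sum, Fintype.card_prod, Fintype.card_option, ZMod.card, sq]
        omega)
      (fun ℓ => suppG ℓ) (fun ℓ => suppG_nonempty hp ℓ)
    exact exists_example hp κ hκ
  refine ⟨hex, fun h => ?_⟩
  obtain ⟨r, m, H, part, hr, ⟨e, he⟩, hun, hint, hcov⟩ := hex
  have hone : ∀ M ⊆ H, (M : Set (Finset (Fin m))).PairwiseDisjoint id → M.card ≤ 1 := by
    intro M hM hd
    rw [Finset.card_le_one]
    intro a ha b hb
    by_contra hab
    obtain ⟨v, hv, hv'⟩ := hint a (hM ha) b (hM hb)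
    exact Finset.disjoint_left.1 (hd ha hb hab) hv hv'
  obtain ⟨C, hC, hcard⟩ := h r m H part 1 hr hun hone
    ⟨{e}, Finset.singleton_subset_iff.2 he, by simp, rfl⟩
  have := hcov C hC
  omega

end Vale.Agent.Results.P045.RyserDisproof
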